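import Mathlib

/-!
# Row 255, TOP side (helper88): flabby systems

An abstract "complex of flabby sheaves": admissible elements `M p`, elements `N p S` vanishing near
`S`, differentials `d p`.  Mayer-Vietoris, Vietoris over an interval, increasing unions, and Bredon's
induction over open sets.
-/

set_option autoImplicit false

open Set Filter Topology

namespace Crest.Agent.N255.AS

/-- a flabby system -/
structure Sys (k K X : Type) [CommRing k] [AddCommGroup K] [Module k K] where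
  M : ℤ → Submodule k K
  N : ℤ → Set X → Submodule k K
  d : ℤ → K →ₗ[k] K
  dM : ∀ p, ∀ x ∈ M p, d p x ∈ M (p + 1)
  dN : ∀ p S, ∀ x ∈ M p, x ∈ N p S → d p x ∈ N (p + 1) S
  dd : ∀ p S, ∀ x ∈ M p, d (p + 1) (d p x) ∈ N (p + 1 + 1) S
  anti : ∀ p S T, S ⊆ T → N p T ≤ N p S

namespace Sys

variable {k K X : Type} [CommRing k] [AddCommGroup K] [Module k K] (s : Sys k K X)

/-- cocycle of degree `p` near `S` -/
def Co (p : ℤ) (S : Set X) (x : K) : Prop := x ∈ s.M p ∧ s.d p x ∈ s.N (p + 1) S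

/-- coboundary (of degree `p + 1`) near `S` -/
def Ex (p : ℤ) (S : Set X) (x : K) : Prop := ∃ y ∈ s.M p, x - s.d p y ∈ s.N (p + 1) S

/-- no cohomology in degree `p + 1` -/
def Ac (p : ℤ) (S : Set X) : Prop := ∀ x, s.Co (p + 1) S x → s.Ex p S x

/-- the cohomology in degree `p + 1` is free of rank one on `g` -/
structure Gen (p : ℤ) (S : Set X) (g : K) : Prop where
  co : s.Co (p + 1) S g
  ne : ∀ a : k, s.Ex p S (a • g) → a = 0
  span : ∀ x, s.Co (p + 1) S x → ∃ a : k, s.Ex p S (x - a • g)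

/-- the Mayer-Vietoris sequence of the pair is exact -/
structure Glue (U V : Set X) : Prop where
  loc : ∀ p, ∀ x ∈ s.M p, x ∈ s.N p U → x ∈ s.N p V → x ∈ s.N p (U ∪ V)
  spl : ∀ p, ∀ x ∈ s.M p, x ∈ s.N p (U ∩ V) → ∃ a ∈ s.M p, a ∈ s.N p U ∧ x - a ∈ s.N p V

/-- gluing along a disjoint family -/
structure DGlue {ι : Type} (U : ι → Set X) : Prop where
  loc : ∀ p, ∀ x ∈ s.M p, (∀ i, x ∈ s.N p (U i)) → x ∈ s.N p (⋃ i, U i)
  glue : ∀ p (y : ι → K), (∀ i, y i ∈ s.M p) → ∃ z ∈ s.M p, ∀ i, z - y i ∈ s.N p (U i)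

variable {s} {p : ℤ} {S T U V : Set X} {x y g : K}

theorem Co.mono (h : s.Co p T x) (hS : S ⊆ T) : s.Co p S x := ⟨h.1, s.anti _ _ _ hS h.2⟩

theorem Ex.mono (h : s.Ex p T x) (hS : S ⊆ T) : s.Ex p S x :=
  let ⟨y, h1, h2⟩ := h; ⟨y, h1, s.anti _ _ _ hS h2⟩

theorem Co.add (h : s.Co p S x) (h' : s.Co p S y) : s.Co p S (x + y) :=
  ⟨add_mem h.1 h'.1, by rw [map_add]; exact add_mem h.2 h'.2⟩

theorem Co.sub (h : s.Co p S x) (h' : s.Co p S y) : s.Co p S (x - y) :=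
  ⟨sub_mem h.1 h'.1, by rw [map_sub]; exact sub_mem h.2 h'.2⟩

theorem Co.smul (h : s.Co p S x) (a : k) : s.Co p S (a • x) :=
  ⟨Submodule.smul_mem _ _ h.1, by rw [map_smul]; exact Submodule.smul_mem _ _ h.2⟩

theorem co_d (hx : x ∈ s.M p) : s.Co (p + 1) S (s.d p x) := ⟨s.dM _ _ hx, s.dd _ _ _ hx⟩

theorem co_of_N (hx : x ∈ s.M p) (h : x ∈ s.N p S) : s.Co p S x := ⟨hx, s.dN _ _ _ hx h⟩

theorem ex_of_N (h : x ∈ s.N (p + 1) S) : s.Ex p S x := ⟨0, zero_mem _, by simpa using h⟩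

theorem ex_d (hx : x ∈ s.M p) : s.Ex p S (s.d p x) := ⟨x, hx, by simp⟩

theorem Ex.add (h : s.Ex p S x) (h' : s.Ex p S y) : s.Ex p S (x + y) := by
  obtain ⟨a, a1, a2⟩ := h
  obtain ⟨b, b1, b2⟩ := h'
  refine ⟨a + b, add_mem a1 b1, ?_⟩
  convert add_mem a2 b2 using 1
  rw [map_add]; abel

theorem Ex.smul (h : s.Ex p S x) (a : k) : s.Ex p S (a • x) := by
  obtain ⟨b, b1, b2⟩ := h
  exact ⟨a • b, Submodule.smul_mem _ _ b1, by
    rw [map_smul, ← smul_sub]; exact Submodule.smul_mem _ _ b2⟩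

theorem Ex.sub (h : s.Ex p S x) (h' : s.Ex p S y) : s.Ex p S (x - y) := by
  simpa [sub_eq_add_neg] using h.add (h'.smul (-1))

theorem Ex.co (h : s.Ex p S x) (hx : x ∈ s.M (p + 1)) : s.Co (p + 1) S x := by
  obtain ⟨b, b1, b2⟩ := h
  simpa using (co_of_N (sub_mem hx (s.dM _ _ b1)) b2).add (co_d b1)

/-- two primitives whose difference is exact on the intersection can be glued -/
theorem ex_glue (hG : s.Glue U V) (hx : x ∈ s.M (p + 1 + 1)) {a b : K} (ha : a ∈ s.M (p + 1))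
    (hb : b ∈ s.M (p + 1)) (h1 : x - s.d (p + 1) a ∈ s.N (p + 1 + 1) U)
    (h2 : x - s.d (p + 1) b ∈ s.N (p + 1 + 1) V) (h : s.Ex p (U ∩ V) (a - b)) :
    s.Ex (p + 1) (U ∪ V) x := by
  obtain ⟨z, z1, z2⟩ := h
  have z3 := s.dM _ _ z1
  obtain ⟨c, c1, c2, c3⟩ := hG.spl _ _ (sub_mem (sub_mem ha hb) z3) z2
  have m : a - s.d p z - c ∈ s.M (p + 1) := sub_mem (sub_mem ha z3) c1
  refine ⟨_, m, hG.loc _ _ (sub_mem hx (s.dM _ _ m)) ?_ ?_⟩
  · convert add_mem (add_mem h1 (s.dd p U z z1)) (s.dN _ _ _ c1 c2) using 1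
    simp only [map_sub]; abel
  · convert sub_mem h2 (s.dN _ _ _ (sub_mem (sub_mem (sub_mem ha hb) z3) c1) c3) using 1
    simp only [map_sub]; abel

theorem co_diff {a b : K} (ha : a ∈ s.M p) (hb : b ∈ s.M p) (h1 : x - s.d p a ∈ s.N (p + 1) U)
    (h2 : x - s.d p b ∈ s.N (p + 1) V) : s.Co p (U ∩ V) (a - b) := by
  refine ⟨sub_mem ha hb, ?_⟩
  convert sub_mem (s.anti _ _ _ inter_subset_right h2) (s.anti _ _ _ inter_subset_left h1) using 1
  rw [map_sub]; abel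

theorem ex_union (hG : s.Glue U V) (hx : x ∈ s.M (p + 1 + 1)) (h1 : s.Ex (p + 1) U x)
    (h2 : s.Ex (p + 1) V x) (h : s.Ac p (U ∩ V)) : s.Ex (p + 1) (U ∪ V) x := by
  obtain ⟨a, a1, a2⟩ := h1
  obtain ⟨b, b1, b2⟩ := h2
  exact ex_glue hG hx a1 b1 a2 b2 (h _ (co_diff a1 b1 a2 b2))

/-- Mayer-Vietoris -/
theorem ac_union (hG : s.Glue U V) (h1 : s.Ac p U) (h2 : s.Ac p V) (h : s.Ac (p - 1) (U ∩ V)) :
    s.Ac p (U ∪ V) := by
  obtain ⟨q, rfl⟩ : ∃ q, p = q + 1 := ⟨p - 1, by ring⟩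
  rw [add_sub_cancel_right] at h
  exact fun x hx => ex_union hG hx.1 (h1 x (hx.mono subset_union_left))
    (h2 x (hx.mono subset_union_right)) h

/-- the connecting isomorphism -/
theorem gen_union (hG : s.Glue U V) (h1 : s.Ac p U) (h2 : s.Ac p V) (h3 : s.Ac (p + 1) U)
    (h4 : s.Ac (p + 1) V) (h : s.Gen p (U ∩ V) g) : ∃ g', s.Gen (p + 1) (U ∪ V) g' := by
  have gm := h.co.1
  obtain ⟨a, a1, a2, a3⟩ := hG.spl _ _ (s.dM _ _ gm) h.co.2
  refine ⟨a, ⟨a1, hG.loc _ _ (s.dM _ _ a1) (s.dN _ _ _ a1 a2) ?_⟩, fun t ht => ?_, fun x hx => ?_⟩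
  · convert sub_mem (s.dd _ V _ gm) (s.dN _ _ _ (sub_mem (s.dM _ _ gm) a1) a3) using 1
    simp only [map_sub]; abel
  · obtain ⟨y, y1, y2⟩ := ht
    have e1 : s.Ex p U y := h1 y ⟨y1, by
      convert sub_mem (Submodule.smul_mem _ t a2) (s.anti _ _ _ subset_union_left y2) using 1
      abel⟩
    have e2 : s.Ex p V (t • g - y) := h2 _ ⟨sub_mem (Submodule.smul_mem _ _ gm) y1, by
      convert add_mem (Submodule.smul_mem _ t a3) (s.anti _ _ _ subset_union_right y2) using 1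
      simp only [map_sub, map_smul, smul_sub]; abel⟩
    exact h.ne t (by simpa using (e1.mono inter_subset_left).add (e2.mono inter_subset_right))
  · obtain ⟨u, u1, u2⟩ := h3 x (hx.mono subset_union_left)
    obtain ⟨v, v1, v2⟩ := h4 x (hx.mono subset_union_right)
    obtain ⟨t, ht⟩ := h.span _ (co_diff u1 v1 u2 v2)
    refine ⟨-t, ex_glue hG (sub_mem hx.1 (Submodule.smul_mem _ _ a1)) u1
      (add_mem v1 (Submodule.smul_mem _ t gm)) ?_ ?_ (by rwa [← sub_sub])⟩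
    · convert add_mem u2 (Submodule.smul_mem _ t a2) using 1
      rw [neg_smul]; abel
    · convert sub_mem v2 (Submodule.smul_mem _ t a3) using 1
      simp only [map_add, map_smul, smul_sub, neg_smul]; abel

theorem ac_iUnion {ι : Type} {U : ι → Set X} (hG : s.DGlue U) (h : ∀ i, s.Ac p (U i)) :
    s.Ac p (⋃ i, U i) := by
  intro x hx
  choose y y1 y2 using fun i => h i x (hx.mono (subset_iUnion U i))
  obtain ⟨z, z1, z2⟩ := hG.glue p y y1
  refine ⟨z, z1, hG.loc _ _ (sub_mem hx.1 (s.dM _ _ z1)) fun i => ?_⟩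
  convert sub_mem (y2 i) (s.dN _ _ _ (sub_mem z1 (y1 i)) (z2 i)) using 1
  rw [map_sub]; abel

/-- relative acyclicity -/
theorem ex_rel (hS : S ⊆ T) (hT : s.Ac (p + 1) T) (h : s.Ac p S) (hx : s.Co (p + 1 + 1) T x)
    (h0 : x ∈ s.N (p + 1 + 1) S) :
    ∃ y ∈ s.M (p + 1), y ∈ s.N (p + 1) S ∧ x - s.d (p + 1) y ∈ s.N (p + 1 + 1) T := by
  obtain ⟨b, b1, b2⟩ := hT x hx
  obtain ⟨a, a1, a2⟩ := h b ⟨b1, by simpa using sub_mem h0 (s.anti _ _ _ hS b2)⟩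
  refine ⟨_, sub_mem b1 (s.dM _ _ a1), a2, ?_⟩
  convert add_mem b2 (s.dd _ T _ a1) using 1
  rw [map_sub]; abel

variable [TopologicalSpace X]

/-- vanishing near `S` is vanishing on an open neighbourhood of `S` -/
def Germ (s : Sys k K X) : Prop := ∀ p S, ∀ x ∈ s.N p S, ∃ W, IsOpen W ∧ S ⊆ W ∧ x ∈ s.N p W

/-- Vietoris' theorem over an interval -/
theorem vietoris (hg : s.Germ)
    (hG : ∀ A B : Set X, IsClosed A → IsClosed B → (A ∩ B).Nonempty → s.Glue A B) [T2Space X]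
    {C : Set X} (hC : IsCompact C) {f : X → ℝ} (hf : Continuous f) {a b : ℝ} (hab : a ≤ b)
    (hm : ∀ x ∈ C, f x ∈ Icc a b) (hne : ∀ t ∈ Icc a b, (C ∩ f ⁻¹' {t}).Nonempty)
    (h : ∀ t ∈ Icc a b, ∀ q, s.Ac q (C ∩ f ⁻¹' {t})) (p : ℤ) : s.Ac p C := by
  obtain ⟨q, rfl⟩ : ∃ q, p = q + 1 := ⟨p - 1, by ring⟩
  intro x hx
  have step : ∀ t ∈ Icc a b, ∃ ε > 0, s.Ex (q + 1) (C ∩ f ⁻¹' Icc (t - ε) (t + ε)) x := by
    intro t ht
    obtain ⟨y, y1, y2⟩ := h t ht _ x (hx.mono inter_subset_left)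
    obtain ⟨W, w1, w2, w3⟩ := hg _ _ _ y2
    have c1 : IsClosed (f '' (C \ W)) := ((hC.diff w1).image hf).isClosed
    have c2 : t ∈ (f '' (C \ W))ᶜ := by
      rintro ⟨z, hz, e⟩
      exact hz.2 (w2 ⟨hz.1, e⟩)
    obtain ⟨ε, e1, e2⟩ := Metric.nhds_basis_closedBall.mem_iff.1 (c1.isOpen_compl.mem_nhds c2)
    refine ⟨ε, e1, y, y1, s.anti _ _ _ (fun z hz => ?_) w3⟩
    by_contra hw
    exact e2 (by rw [Real.closedBall_eq_Icc]; exact hz.2) ⟨z, ⟨hz.1, hw⟩, rfl⟩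
  have up : ∀ u ∈ Icc a b, ∀ v, s.Ex (q + 1) (C ∩ f ⁻¹' Icc u v) x →
      s.Ex (q + 1) (C ∩ f ⁻¹' Iic u) x → u ≤ v → s.Ex (q + 1) (C ∩ f ⁻¹' Iic v) x := by
    intro u hu v h1 h2 huv
    have e : (C ∩ f ⁻¹' Iic u) ∩ (C ∩ f ⁻¹' Icc u v) = C ∩ f ⁻¹' {u} := by
      ext z
      exact ⟨fun hz => ⟨hz.1.1, le_antisymm hz.1.2 hz.2.2.1⟩,
        fun hz => ⟨⟨hz.1, le_of_eq hz.2⟩, hz.1, ge_of_eq hz.2, (le_of_eq hz.2).trans huv⟩⟩
    refine (ex_union (hG _ _ (hC.isClosed.inter (isClosed_Iic.preimage hf))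
      (hC.isClosed.inter (isClosed_Icc.preimage hf)) (e ▸ hne u hu)) hx.1 h2 h1
      (e ▸ h u hu q)).mono fun z hz => ?_
    rcases le_total (f z) u with h' | h'
    · exact Or.inl ⟨hz.1, h'⟩
    · exact Or.inr ⟨hz.1, h', hz.2⟩
  have key := isPreconnected_Icc.induction₂' (s := Icc a b)
    (fun u v => s.Ex (q + 1) (C ∩ f ⁻¹' Iic u) x → s.Ex (q + 1) (C ∩ f ⁻¹' Iic v) x)
    (fun t ht => ?_) (fun _ _ _ _ _ _ h1 h2 h3 => h2 (h1 h3)) ⟨le_rfl, hab⟩ ⟨hab, le_rfl⟩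
  · refine (key ((h a ⟨le_rfl, hab⟩ _ x (hx.mono inter_subset_left)).mono fun z hz =>
      ⟨hz.1, le_antisymm hz.2 (hm z hz.1).1⟩)).mono fun z hz => ⟨hz, (hm z hz).2⟩
  · obtain ⟨ε, e1, e2⟩ := step t ht
    have w : ∀ u ∈ Icc a b, u ∈ Icc (t - ε) (t + ε) → ∀ v ∈ Icc (t - ε) (t + ε),
        s.Ex (q + 1) (C ∩ f ⁻¹' Iic u) x → s.Ex (q + 1) (C ∩ f ⁻¹' Iic v) x := by
      intro u hu hu' v hv h1
      rcases le_total u v with h' | h'
      · exact up u hu v (e2.mono fun z hz => ⟨hz.1, hu'.1.trans hz.2.1, hz.2.2.trans hv.2⟩) h1 h'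
      · exact h1.mono fun z hz => ⟨hz.1, le_trans hz.2 h'⟩
    have t0 : t ∈ Icc (t - ε) (t + ε) := ⟨by linarith, by linarith⟩
    filter_upwards [self_mem_nhdsWithin, nhdsWithin_le_nhds
      (Icc_mem_nhds (a := t - ε) (b := t + ε) (by linarith) (by linarith))] with u hu hu'
    exact ⟨w t ht t0 u hu', w u hu hu' t t0⟩

end Sys

/-! ### induction over open sets -/

section bredon

variable {X : Type} [TopologicalSpace X] {P : Set X → Prop}

theorem fin_union {B : Set (Set X)} (ho : ∀ b ∈ B, IsOpen b)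
    (hi : ∀ b ∈ B, ∀ c ∈ B, b ∩ c ∈ B) (hP : ∀ b ∈ B, P b) (h0 : P ∅)
    (hU : ∀ U V, IsOpen U → IsOpen V → P U → P V → P (U ∩ V) → P (U ∪ V))
    {ι : Type} (s : Finset ι) (b : ι → Set X) (hb : ∀ i ∈ s, b i ∈ B) : P (⋃ i ∈ s, b i) := by
  classical
  induction s using Finset.induction_on generalizing b with
  | empty => simpa using h0
  | insert a s ha ih =>
    have h1 := hb a (Finset.mem_insert_self _ _)
    have h2 : ∀ i ∈ s, b i ∈ B := fun i hi => hb i (Finset.mem_insert_of_mem hi)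
    rw [Finset.set_biUnion_insert]
    refine hU _ _ (ho _ h1) (isOpen_biUnion fun i hi => ho _ (h2 i hi)) (hP _ h1) (ih b h2) ?_
    rw [inter_iUnion₂]
    exact ih (fun i => b a ∩ b i) fun i hi' => hi _ h1 _ (h2 i hi')

/-- Bredon's induction principle -/
theorem bredon [T2Space X] [LocallyCompactSpace X] [SecondCountableTopology X] {B : Set (Set X)}
    (ho : ∀ b ∈ B, IsOpen b) (hi : ∀ b ∈ B, ∀ c ∈ B, b ∩ c ∈ B) (hP : ∀ b ∈ B, P b) (h0 : P ∅)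
    (hU : ∀ U V, IsOpen U → IsOpen V → P U → P V → P (U ∩ V) → P (U ∪ V))
    (hD : ∀ (ι : Type) (U : ι → Set X), (∀ i, IsOpen (U i)) → Pairwise (Function.onFun Disjoint U) →
      (∀ i, P (U i)) → P (⋃ i, U i))
    {O : Set X} (hO : IsOpen O) (hb : ∀ x ∈ O, ∀ W ∈ 𝓝 x, ∃ b ∈ B, x ∈ b ∧ b ⊆ W) : P O := by
  classical
  let F : Set (Set X) := {U | ∃ (ι : Type) (s : Finset ι) (b : ι → Set X),
    (∀ i ∈ s, b i ∈ B) ∧ U = ⋃ i ∈ s, b i}
  have Fo : ∀ U ∈ F, IsOpen U := by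
    rintro _ ⟨ι, s, b, h, rfl⟩
    exact isOpen_biUnion fun i hi => ho _ (h i hi)
  have FP : ∀ U ∈ F, P U := by
    rintro _ ⟨ι, s, b, h, rfl⟩
    exact fin_union ho hi hP h0 hU s b h
  have Fi : ∀ U ∈ F, ∀ V ∈ F, U ∩ V ∈ F := by
    rintro _ ⟨ι, s, b, h, rfl⟩ _ ⟨κ, t, c, h', rfl⟩
    refine ⟨ι × κ, s ×ˢ t, fun q => b q.1 ∩ c q.2, fun q hq => hi _ (h _ (Finset.mem_product.1 hq).1)
      _ (h' _ (Finset.mem_product.1 hq).2), ?_⟩
    ext x
    simp only [mem_inter_iff, mem_iUnion, Finset.mem_product, exists_prop, Prod.exists]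
    exact ⟨fun ⟨⟨i, a1, a2⟩, j, a3, a4⟩ => ⟨i, j, ⟨a1, a3⟩, a2, a4⟩,
      fun ⟨i, j, ⟨a1, a3⟩, a2, a4⟩ => ⟨⟨i, a1, a2⟩, j, a3, a4⟩⟩
  let G : Set (Set X) := {U | ∃ (ι : Type) (b : ι → Set X), (∀ i, b i ∈ F) ∧
    Pairwise (Function.onFun Disjoint b) ∧ U = ⋃ i, b i}
  have Go : ∀ U ∈ G, IsOpen U := by
    rintro _ ⟨ι, b, h, -, rfl⟩
    exact isOpen_iUnion fun i => Fo _ (h i)
  have GP : ∀ U ∈ G, P U := by
    rintro _ ⟨ι, b, h, h', rfl⟩
    exact hD ι b (fun i => Fo _ (h i)) h' fun i => FP _ (h i)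
  have Gi : ∀ U ∈ G, ∀ V ∈ G, U ∩ V ∈ G := by
    rintro _ ⟨ι, b, h, h1, rfl⟩ _ ⟨κ, c, h', h2, rfl⟩
    refine ⟨ι × κ, fun q => b q.1 ∩ c q.2, fun q => Fi _ (h _) _ (h' _), fun q r hqr => ?_, ?_⟩
    · by_cases e : q.1 = r.1
      · exact (h2 fun e' => hqr (Prod.ext e e')).mono inter_subset_right inter_subset_right
      · exact (h1 e).mono inter_subset_left inter_subset_left
    · ext x
      simp only [mem_inter_iff, mem_iUnion, Prod.exists]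
      exact ⟨fun ⟨⟨i, a2⟩, j, a4⟩ => ⟨i, j, a2, a4⟩, fun ⟨i, j, a2, a4⟩ => ⟨⟨i, a2⟩, j, a4⟩⟩
  have : LocallyCompactSpace O := hO.locallyCompactSpace
  let K := CompactExhaustion.choice O
  let L : ℕ → Set X := fun m => Subtype.val '' K m
  have Lc : ∀ m, IsCompact (L m) := fun m => (K.isCompact m).image continuous_subtype_val
  have Lm : ∀ {m n}, m ≤ n → L m ⊆ L n := fun h => image_mono (K.subset h)
  have Li : ∀ m, L m ⊆ interior (L (m + 1)) := fun m =>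
    (image_mono (K.subset_interior_succ m)).trans
      (hO.isOpenMap_subtype_val.image_interior_subset _)
  have LO : ∀ m, L m ⊆ O := by rintro m _ ⟨x, -, rfl⟩; exact x.2
  let L' : ℕ → Set X := fun m => if m < 2 then ∅ else L (m - 2)
  have hA : ∀ m, ∃ U ∈ F, L m \ interior (L' (m + 1)) ⊆ U ∧ U ⊆ L (m + 1) \ L' m := by
    intro m
    have c1 : IsCompact (L m \ interior (L' (m + 1))) := (Lc m).diff isOpen_interior
    have c2 : IsClosed (L' m) := by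
      simp only [L']; split_ifs
      exacts [isClosed_empty, (Lc _).isClosed]
    have c3 : ∀ x ∈ L m \ interior (L' (m + 1)), L (m + 1) \ L' m ∈ 𝓝 x := by
      intro x hx
      refine inter_mem (mem_interior_iff_mem_nhds.1 (Li m hx.1))
        (c2.isOpen_compl.mem_nhds fun h => hx.2 ?_)
      simp only [L'] at h ⊢
      by_cases hm : m < 2
      · rw [if_pos hm] at h; exact h.elim
      · rw [if_neg hm] at h
        rw [if_neg (by omega), show m + 1 - 2 = m - 2 + 1 by omega]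
        exact Li _ h
    choose! b b1 b2 b3 using fun x (hx : x ∈ L m \ interior (L' (m + 1))) =>
      hb x (LO m hx.1) _ (c3 x hx)
    obtain ⟨t, t1, t2⟩ := c1.elim_nhds_subcover b fun x hx => (ho _ (b1 x hx)).mem_nhds (b2 x hx)
    exact ⟨_, ⟨X, t, b, fun i hi => b1 i (t1 i hi), rfl⟩, t2,
      iUnion₂_subset fun i hi => b3 i (t1 i hi)⟩
  choose U U1 U2 U3 using hA
  have e : O = ⋃ r ∈ (Finset.univ : Finset (Fin 3)), ⋃ j : ℕ, U (3 * j + r) := by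
    refine Subset.antisymm (fun x hx => ?_) (iUnion₂_subset fun r _ => iUnion_subset fun j =>
      (U3 _).trans (sdiff_subset.trans (LO _)))
    have ex : ∃ m, x ∈ L m := ⟨_, ⟨x, hx⟩, K.mem_find ⟨x, hx⟩, rfl⟩
    have h1 : x ∈ U (Nat.find ex) := U2 _ ⟨Nat.find_spec ex, fun h => ?_⟩
    · refine mem_iUnion₂.2 ⟨⟨Nat.find ex % 3, Nat.mod_lt _ (by norm_num)⟩, Finset.mem_univ _,
        mem_iUnion.2 ⟨Nat.find ex / 3, ?_⟩⟩
      simpa only [Nat.div_add_mod] using h1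
    · have h2 := interior_subset h
      simp only [L'] at h2
      split_ifs at h2 with h3
      · exact h2.elim
      · exact Nat.find_min ex (by omega) h2
  rw [e]
  refine fin_union Go Gi GP h0 hU _ _ fun r _ => ⟨ℕ, _, fun j => U1 _, ?_, rfl⟩
  have w : ∀ i j : ℕ, i < j → Disjoint (U (3 * i + r)) (U (3 * j + r)) := fun i j hij =>
    disjoint_left.2 fun x h1 h2 => (U3 _ h2).2 (by
      simp only [L']
      rw [if_neg (by omega)]
      exact Lm (by omega) (U3 _ h1).1)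
  intro i j hij
  rcases lt_or_gt_of_ne hij with h | h
  · exact w i j h
  · exact (w j i h).symm

end bredon

end Crest.Agent.N255.AS
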